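import Vale.Agent.P127.S.Blocks
import Vale.Agent.P127.U.JS

/-!
# P127 / S / H330 : the window inequality for random exponents (helper330)
-/

set_option autoImplicit false

namespace Vale.Agent.P127.S.EJ

open Vale.Agent.P127 Vale.Agent.P127.Stk Vale.Agent.P127.U JSB

section finite

variable {Ω : Type} [Fintype Ω]

/-- expectations are averages over the values of a variable -/
theorem ex_cond_sum {V : Type*} (P : Law Ω) (C : Ω → V) (f : Ω → ℝ) :
    P.ex f = ∑ z ∈ img C, P.pr C z * (P.cond C z).ex f := by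
  unfold Law.ex
  have h1 : ∀ z ∈ img C, P.pr C z * ∑ ω, (P.cond C z).w ω * f ω =
      ∑ ω, P.pr C z * (P.cond C z).w ω * f ω := by
    intro z _
    rw [Finset.mul_sum]
    exact Finset.sum_congr rfl fun ω _ => by ring
  rw [Finset.sum_congr rfl h1, Finset.sum_comm]
  refine Finset.sum_congr rfl fun ω _ => ?_
  rw [← Finset.sum_mul, cond_avg]

theorem hc_unit' {α β : Type*} (P : Law Ω) (X : Ω → α) (Y : Ω → β) :
    hc P X (fun ω => (Y ω, ())) = hc P X Y :=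
  hc_congr P (fun _ _ _ _ e => congrArg Prod.fst e) (fun _ _ _ _ e => congrArg Prod.fst e)
    (fun _ _ _ _ e => Prod.ext e rfl) (fun _ _ _ _ e => congrArg Prod.fst e)

/-- **the window inequality for random exponents** -/
theorem fb_glue {N lam : ℝ} {s : ℕ} {b : ℝ} (hF : FB N lam s b) (P : Law Ω) (l' : Ω → Ln)
    (t' : Ω → ℝ) (k j : Ω → ℕ) (v : Ω → ℝ) {α : Type} (x : Ω → α) (ht : T01 P t')
    (hkj : ∀ ω, 0 < P.w ω → k ω ≤ j ω) (hv : ∀ ω, 0 ≤ v ω ∧ v ω < 1)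
    (hx : ∀ ω ω', 0 < P.w ω → 0 < P.w ω' → x ω = x ω' → k ω = k ω' ∧ j ω = j ω') :
    ∃ (Ω'' : Type) (_ : Fintype Ω'') (M : Law Ω'') (π : Ω'' → Ω) (B : Ω'' → Sh),
      (∀ ω, M.pr π ω = P.w ω) ∧
      (∀ ω, 0 < M.w ω → (B ω).p ≤ (B ω).r ∧ (B ω).r ≤ s + j (π ω) ∧ 0 ≤ (B ω).v ∧ (B ω).v < 1) ∧
      hc P l' (fun ω => (dl s ⟨s + k ω, s + j ω, v ω⟩ (l' ω) (t' ω), x ω)) +
          Real.log 2 * P.ex (fun ω => sc lam ⟨s + k ω, s + j ω, v ω⟩) ≤
        hc M (fun ω => l' (π ω)) (fun ω => (dl 0 (B ω) (l' (π ω)) (t' (π ω)), x (π ω))) +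
          Real.log 2 * M.ex (fun ω => sc lam (B ω)) + b +
          N * (s * Real.log 2 - hc P (fun ω => fl1 s (t' ω)) (fun ω => (l' ω, x ω))) + 1 := by
  classical
  set A : Ω → Sh := fun ω => ⟨s + k ω, s + j ω, v ω⟩ with hA
  have hz : ∀ z : {z // z ∈ img x}, ∃ (e : Ex (P.cond x z.1)) (B : e.Ω' → Sh), 0 < P.pr x z.1 →
      (∀ ω, 0 < e.P'.w ω → (B ω).p ≤ (B ω).r ∧ (B ω).r ≤ s + j (e.π ω) ∧ 0 ≤ (B ω).v ∧
        (B ω).v < 1) ∧
      hc (P.cond x z.1) l' (fun ω => dl s (A ω) (l' ω) (t' ω)) +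
          Real.log 2 * (P.cond x z.1).ex (fun ω => sc lam (A ω)) ≤
        hc e.P' (fun ω => l' (e.π ω)) (fun ω => dl 0 (B ω) (l' (e.π ω)) (t' (e.π ω))) +
          Real.log 2 * e.P'.ex (fun ω => sc lam (B ω)) + b +
          N * (s * Real.log 2 - hc (P.cond x z.1) (fun ω => fl1 s (t' ω)) l') + 1 := by
    rintro ⟨z, hz⟩
    by_cases h0 : 0 < P.pr x z
    · -- a point of the support
      have hex : ∃ ω₀, 0 < (P.cond x z).w ω₀ := by
        by_contra hcon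
        push Not at hcon
        have : ∑ ω, (P.cond x z).w ω ≤ 0 := Finset.sum_nonpos fun ω _ => hcon ω
        rw [(P.cond x z).sum_one] at this
        linarith
      obtain ⟨ω₀, hω₀⟩ := hex
      have s0 := cond_supp P x z hω₀
      have x0 := cond_supp' P x z h0 hω₀
      have hA' : ∀ ω, 0 < (P.cond x z).w ω → (A ω).p = s + k ω₀ ∧ (A ω).r = s + j ω₀ ∧
          Ok s (s + k ω₀ - s) 0 (s + j ω₀) 0 (A ω) := by
        intro ω hω
        have s1 := cond_supp P x z hω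
        have x1 := cond_supp' P x z h0 hω
        obtain ⟨e1, e2⟩ := hx ω ω₀ s1 s0 (x1.trans x0.symm)
        have e3 := hkj ω s1
        refine ⟨by simp only [hA, e1], by simp only [hA, e2], ?_, ?_, ?_, (hv ω).1, (hv ω).2, ?_⟩
        · simp only [hA, e1]
          omega
        · simp only [hA]
          omega
        · simp only [hA, e2]
          exact le_rfl
        · have a1 := hv ω
          show ⌊(2:ℝ) ^ 0 * v ω⌋ = ⌊(2:ℝ) ^ 0 * 0⌋
          rw [pow_zero, one_mul, one_mul, Int.floor_zero, Int.floor_eq_zero_iff]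
          exact ⟨a1.1, a1.2⟩
      obtain ⟨e, B, g1, g2⟩ := hF Ω (P.cond x z) l' t' Unit (fun _ => ()) A (s + k ω₀) (s + j ω₀)
        (fun ω hω => ht ω (cond_supp P x z hω)) (by omega) hA'
      refine ⟨e, B, fun _ => ⟨fun ω hω => ?_, ?_⟩⟩
      · obtain ⟨c1, c2, c3, c4, c5, c6⟩ := g1 ω hω
        have hpos : 0 < (P.cond x z).w (e.π ω) := by
          rw [← e.law]
          exact e.P'.pr_pos e.π hω
        obtain ⟨-, e2, -⟩ := hA' (e.π ω) hpos
        have e2' : s + j (e.π ω) = s + j ω₀ := e2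
        refine ⟨by omega, ?_, c4, c5⟩
        rw [e2']
        exact c3
      · unfold val tH at g2
        have r1 := hc_unit' (P.cond x z) l' (fun ω => dl s (A ω) (l' ω) (t' ω))
        have r2 := hc_unit' (P.cond x z) (fun ω => fl1 s (t' ω)) l'
        have r3 := hc_unit' e.P' (e.pull l') (fun ω => dl 0 (B ω) (e.pull l' ω) (e.pull t' ω))
        have r4 : (fun ω => (dl 0 (B ω) (e.pull l' ω) (e.pull t' ω), e.pull (fun _ => ()) ω)) =
            fun ω => (dl 0 (B ω) (e.pull l' ω) (e.pull t' ω), ()) := rfl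
        rw [r1, r2, r4, r3] at g2
        exact g2
    · exact ⟨⟨Ω, inferInstance, P.cond x z, id, pr_id _⟩, fun _ => ⟨0, 0, 0⟩, fun h => absurd h h0⟩
  choose e B hB using hz
  have a0 : ∀ z : {z // z ∈ img x}, 0 ≤ P.pr x z.1 := fun z => P.pr_nonneg _ _
  have a1 : ∑ z : {z // z ∈ img x}, P.pr x z.1 = 1 := by
    rw [Finset.sum_coe_sort (img x) (fun z => P.pr x z)]
    exact P.sum_pr_image x
  set M : Law (Σ z, (e z).Ω') := sumL (fun z : {z // z ∈ img x} => P.pr x z.1) a0 a1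
    (fun z => (e z).P') with hM
  have hMw : ∀ p : (Σ z, (e z).Ω'), M.w p = P.pr x p.1.1 * (e p.1).P'.w p.2 := fun p => rfl
  set ρ : (Σ z, (e z).Ω') → Ω := fun p => (e p.1).π p.2 with hρ
  set B' : (Σ z, (e z).Ω') → Sh := fun p => B p.1 p.2 with hB'
  have hpos : ∀ p : (Σ z, (e z).Ω'), 0 < M.w p → 0 < P.pr x p.1.1 ∧ 0 < (e p.1).P'.w p.2 := by
    intro p hp
    rw [hMw] at hp
    have b1 := P.pr_nonneg x p.1.1
    have b2 := (e p.1).P'.nn p.2
    constructor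
    · rcases b1.eq_or_lt with h2 | h2
      · rw [← h2, zero_mul] at hp
        exact absurd hp (lt_irrefl 0)
      · exact h2
    · rcases b2.eq_or_lt with h2 | h2
      · rw [← h2, mul_zero] at hp
        exact absurd hp (lt_irrefl 0)
      · exact h2
  have hC : ∀ p : (Σ z, (e z).Ω'), 0 < M.w p → x (ρ p) = p.1.1 := by
    intro p hp
    obtain ⟨b1, b2⟩ := hpos p hp
    refine cond_supp' P x p.1.1 b1 ?_
    rw [← (e p.1).law (ρ p)]
    exact (e p.1).P'.pr_pos (e p.1).π b2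
  have hpr : ∀ ω, M.pr ρ ω = P.w ω := by
    intro ω
    rw [hM, sumL_pr]
    have h1 : ∀ z : {z // z ∈ img x}, (e z).P'.pr (fun ω' => ρ ⟨z, ω'⟩) ω = (P.cond x z.1).w ω :=
      fun z => (e z).law ω
    simp only [h1]
    rw [Finset.sum_coe_sort (img x) (fun z => P.pr x z * (P.cond x z).w ω)]
    exact cond_avg P x ω
  refine ⟨_, inferInstance, M, ρ, B', hpr, fun p hp => (hB p.1 (hpos p hp).1).1 p.2 (hpos p hp).2, ?_⟩
  -- sums
  have s1 := hc_cond_sum P l' (fun ω => dl s (A ω) (l' ω) (t' ω)) x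
  have s2 := ex_cond_sum P x (fun ω => sc lam (A ω))
  have s3 := hc_cond_sum P (fun ω => fl1 s (t' ω)) l' x
  have s4 := sumL_hc (a := fun z : {z // z ∈ img x} => P.pr x z.1) (h0 := a0) (h1 := a1)
    (Q := fun z => (e z).P') (fun p => l' (ρ p)) (fun p => dl 0 (B' p) (l' (ρ p)) (t' (ρ p)))
  have s5 := sumL_ex (a := fun z : {z // z ∈ img x} => P.pr x z.1) (h0 := a0) (h1 := a1)
    (Q := fun z => (e z).P') (fun p => sc lam (B' p))
  rw [← hM] at s4 s5
  have s6 : hc M (fun p => l' (ρ p)) (fun p => (dl 0 (B' p) (l' (ρ p)) (t' (ρ p)), p.1)) ≤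
      hc M (fun p => l' (ρ p)) (fun p => (dl 0 (B' p) (l' (ρ p)) (t' (ρ p)), x (ρ p))) := by
    refine hc_mono_right M _ ?_
    intro p p' hp hp' e
    simp only [Prod.mk.injEq] at e ⊢
    rw [hC p hp, hC p' hp', e.2]
    exact ⟨e.1, rfl⟩
  have key : ∀ z : {z // z ∈ img x}, P.pr x z.1 * (hc (P.cond x z.1) l'
        (fun ω => dl s (A ω) (l' ω) (t' ω)) +
          Real.log 2 * (P.cond x z.1).ex (fun ω => sc lam (A ω))) ≤
      P.pr x z.1 * (hc (e z).P' (fun ω => l' (ρ ⟨z, ω⟩))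
        (fun ω => dl 0 (B' ⟨z, ω⟩) (l' (ρ ⟨z, ω⟩)) (t' (ρ ⟨z, ω⟩))) +
          Real.log 2 * (e z).P'.ex (fun ω => sc lam (B' ⟨z, ω⟩)) + b +
          N * (s * Real.log 2 - hc (P.cond x z.1) (fun ω => fl1 s (t' ω)) l') + 1) := by
    intro z
    rcases (a0 z).eq_or_lt with h | h
    · rw [← h]
      simp
    · exact mul_le_mul_of_nonneg_left (hB z h).2 h.le
  have sumk := Finset.sum_le_sum fun (z : {z // z ∈ img x}) (_ : z ∈ Finset.univ) => key z
  have t1 : ∑ z : {z // z ∈ img x}, P.pr x z.1 * (hc (P.cond x z.1) l'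
        (fun ω => dl s (A ω) (l' ω) (t' ω)) +
          Real.log 2 * (P.cond x z.1).ex (fun ω => sc lam (A ω))) =
      hc P l' (fun ω => (dl s (A ω) (l' ω) (t' ω), x ω)) + Real.log 2 * P.ex (fun ω => sc lam (A ω)) := by
    rw [s1, s2, Finset.mul_sum, ← Finset.sum_add_distrib,
      Finset.sum_coe_sort (img x) (fun z => P.pr x z * (hc (P.cond x z) l'
        (fun ω => dl s (A ω) (l' ω) (t' ω)) +
          Real.log 2 * (P.cond x z).ex (fun ω => sc lam (A ω))))]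
    refine Finset.sum_congr rfl fun z _ => ?_
    ring
  have t2 : ∑ z : {z // z ∈ img x}, P.pr x z.1 * (hc (e z).P' (fun ω => l' (ρ ⟨z, ω⟩))
        (fun ω => dl 0 (B' ⟨z, ω⟩) (l' (ρ ⟨z, ω⟩)) (t' (ρ ⟨z, ω⟩))) +
          Real.log 2 * (e z).P'.ex (fun ω => sc lam (B' ⟨z, ω⟩)) + b +
          N * (s * Real.log 2 - hc (P.cond x z.1) (fun ω => fl1 s (t' ω)) l') + 1) =
      hc M (fun p => l' (ρ p)) (fun p => (dl 0 (B' p) (l' (ρ p)) (t' (ρ p)), p.1)) +
        Real.log 2 * M.ex (fun p => sc lam (B' p)) + b +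
        N * (s * Real.log 2 - hc P (fun ω => fl1 s (t' ω)) (fun ω => (l' ω, x ω))) + 1 := by
    rw [s4, s5, s3]
    have e1 : ∑ z ∈ img x, P.pr x z * hc (P.cond x z) (fun ω => fl1 s (t' ω)) l' =
        ∑ z : {z // z ∈ img x}, P.pr x z.1 * hc (P.cond x z.1) (fun ω => fl1 s (t' ω)) l' :=
      (Finset.sum_coe_sort (img x)
        (fun z => P.pr x z * hc (P.cond x z) (fun ω => fl1 s (t' ω)) l')).symm
    rw [e1]
    have e2 : ∀ z : {z // z ∈ img x}, P.pr x z.1 * (hc (e z).P' (fun ω => l' (ρ ⟨z, ω⟩))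
        (fun ω => dl 0 (B' ⟨z, ω⟩) (l' (ρ ⟨z, ω⟩)) (t' (ρ ⟨z, ω⟩))) +
          Real.log 2 * (e z).P'.ex (fun ω => sc lam (B' ⟨z, ω⟩)) + b +
          N * (s * Real.log 2 - hc (P.cond x z.1) (fun ω => fl1 s (t' ω)) l') + 1) =
        P.pr x z.1 * hc (e z).P' (fun ω => l' (ρ ⟨z, ω⟩))
          (fun ω => dl 0 (B' ⟨z, ω⟩) (l' (ρ ⟨z, ω⟩)) (t' (ρ ⟨z, ω⟩))) +
        Real.log 2 * (P.pr x z.1 * (e z).P'.ex (fun ω => sc lam (B' ⟨z, ω⟩))) +
        P.pr x z.1 * (b + N * (s * Real.log 2) + 1) -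
        N * (P.pr x z.1 * hc (P.cond x z.1) (fun ω => fl1 s (t' ω)) l') := fun z => by ring
    rw [Finset.sum_congr rfl fun z _ => e2 z, Finset.sum_sub_distrib, Finset.sum_add_distrib,
      Finset.sum_add_distrib, ← Finset.mul_sum, ← Finset.mul_sum, ← Finset.sum_mul, a1]
    ring
  rw [t1, t2] at sumk
  linarith

end finite

end Vale.Agent.P127.S.EJ
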