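import Vale.Agent.P127.S.H330.Soft
import Vale.Agent.P127.S.H330.Glue

/-!
# P127 / S / H330 : block ENDJ from the comparisons J1 and J2 (helper330)
-/

set_option autoImplicit false

namespace Vale.Agent.P127.S.EJ

open Vale.Agent.P127 Vale.Agent.P127.Stk Vale.Agent.P127.U

section finite

variable {Ω : Type} [Fintype Ω]

/-- time rounded into `[0, 1)` -/
theorem hc_time {β : Type*} (P : Law Ω) {s n : ℕ} (h : s ≤ n) (t : Ω → ℝ)
    (ht : ∀ ω, 0 < P.w ω → 0 ≤ t ω ∧ t ω ≤ 1) (Y : Ω → β) :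
    hc P (fun ω => fl1 s (t ω))
      (fun ω => (fl1 s (min (t ω) (1 - (1 / 2 : ℝ) ^ n)), Y ω)) ≤ Real.log 2 := by
  have h1 := hc_le_log P (fun ω => fl1 s (t ω))
    (fun ω => (fl1 s (min (t ω) (1 - (1 / 2 : ℝ) ^ n)), Y ω)) 2 fun ω hω =>
    ⟨{fl1 s (min (t ω) (1 - (1 / 2 : ℝ) ^ n)), fl1 s (min (t ω) (1 - (1 / 2 : ℝ) ^ n)) + 1},
      Finset.card_le_two, fun ω' hω' e => by
      simp only [Prod.mk.injEq] at e
      rw [← e.1]
      simp only [Finset.mem_insert, Finset.mem_singleton]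
      obtain ⟨g1, g2⟩ := ht ω' hω'
      have p : (0:ℝ) < 2 ^ s := by positivity
      have q : (0:ℝ) < 2 ^ n := by positivity
      have hsn : (2:ℝ) ^ s ≤ 2 ^ n := pow_le_pow_right₀ (by norm_num) h
      have hr : (2:ℝ) ^ s * (1 / 2) ^ n ≤ 1 := by
        rw [one_div, inv_pow, ← div_eq_mul_inv, div_le_one q]
        exact hsn
      have a1 : (2:ℝ) ^ s * t ω' ≤ 2 ^ s * min (t ω') (1 - (1 / 2 : ℝ) ^ n) + 1 := by
        rcases le_total (t ω') (1 - (1 / 2 : ℝ) ^ n) with h' | h'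
        · rw [min_eq_left h']
          linarith
        · rw [min_eq_right h']
          nlinarith
      have a2 : (2:ℝ) ^ s * min (t ω') (1 - (1 / 2 : ℝ) ^ n) ≤ 2 ^ s * t ω' :=
        mul_le_mul_of_nonneg_left (min_le_left _ _) p.le
      have b1 : fl1 s (min (t ω') (1 - (1 / 2 : ℝ) ^ n)) ≤ fl1 s (t ω') := Int.floor_le_floor a2
      have b2 : fl1 s (t ω') ≤ fl1 s (min (t ω') (1 - (1 / 2 : ℝ) ^ n)) + 1 := by
        unfold fl1
        have := Int.floor_le_floor a1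
        rwa [Int.floor_add_one] at this
      omega⟩
  simpa using h1

/-- the shape and the sector -/
theorem hc_shape {β : Type*} (P : Law Ω) (n : ℕ) (o : Ω → Sec) (k j : Ω → ℕ) (Y : Ω → β)
    (h : ∀ ω, 0 < P.w ω → k ω ≤ n ∧ j ω ≤ n) :
    hc P (fun ω => (o ω, (k ω, j ω))) Y ≤ Real.log 4 + 2 * Real.log (n + 1) := by
  have h1 := log_finset P (fun ω => (o ω, (k ω, j ω))) Y
    ((Finset.univ : Finset Sec) ×ˢ ((Finset.range (n + 1)) ×ˢ (Finset.range (n + 1))))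
    (fun ω hω => by
      obtain ⟨a1, a2⟩ := h ω hω
      simp only [Finset.mem_product, Finset.mem_univ, Finset.mem_range, true_and]
      omega)
  have e : ((((Finset.univ : Finset Sec) ×ˢ ((Finset.range (n + 1)) ×ˢ
      (Finset.range (n + 1)))).card : ℕ) : ℝ) = 4 * ((n:ℝ) + 1) ^ 2 := by
    rw [Finset.card_product, Finset.card_product, Finset.card_range, Finset.card_univ]
    have : Fintype.card Sec = 4 := by simp [Sec]
    rw [this]
    push_cast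
    ring
  rw [e, Real.log_mul (by norm_num) (by positivity), Real.log_pow] at h1
  push_cast at h1
  exact h1

/-- **the value at the level `0`** -/
theorem level0 {K lam : ℝ} (hJ : J2 K) (M : Law Ω) (n : ℕ) (l : Ω → Ln) (t' : Ω → ℝ)
    (o : Ω → Sec) (B : Ω → Sh) {α : Type} (y : Ω → α) (hl : ∀ ω, 0 < M.w ω → LnOk (l ω))
    (ht : ∀ ω, 0 < M.w ω → 0 ≤ t' ω ∧ t' ω < 1)
    (hB : ∀ ω, 0 < M.w ω → (B ω).p ≤ (B ω).r ∧ (B ω).r ≤ n ∧ 0 ≤ (B ω).v ∧ (B ω).v < 1) :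
    ∃ W : Bx Ω, (∀ ω, 0 < M.w ω → Sub 1 (tbx n l) W ω) ∧ W.szl lam = (fun ω => sc lam (B ω)) ∧
      hc M (fun ω => Tl (o ω) (rd n (l ω)))
        (fun ω => (dl 0 (B ω) (Tl (o ω) (rd n (l ω))) (t' ω), (o ω, y ω))) ≤
      hc M (fun ω => tb n (l ω)) (fun ω => (W.lab ω, ())) + (K + MJ.Kc 2) := by
  classical
  have hθ : ∀ ω, ∃ θ : ℝ, (0 ≤ (B ω).v ∧ (B ω).v < 1) → |θ| ≤ 4 ∧
      ∀ (k j : ℕ) (v : Fin 2 → ℝ), Str.gq (Real.arctan (B ω).v) k j (T (o ω) v) = Str.gq θ k j v := by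
    intro ω
    by_cases h : 0 ≤ (B ω).v ∧ (B ω).v < 1
    · have h1 : 0 ≤ Real.arctan (B ω).v := by
        rw [← Real.arctan_zero]
        exact Real.arctan_mono h.1
      have h2 : Real.arctan (B ω).v ≤ Real.pi / 4 := by
        rw [← Real.arctan_one]
        exact Real.arctan_mono h.2.le
      obtain ⟨θ, a1, a2⟩ := sector' (o ω) h1 h2
      exact ⟨θ, fun _ => ⟨a1, a2⟩⟩
    · exact ⟨0, fun h' => absurd h' h⟩
  choose θ hθ using hθ
  set W : Bx Ω := ⟨l, θ, fun ω => (B ω).p, fun ω => (B ω).r⟩ with hW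
  set T' : Bx Ω := ⟨fun ω => Tl (o ω) (l ω), fun ω => Real.arctan (B ω).v, fun ω => (B ω).p,
    fun ω => (B ω).r⟩ with hT'
  refine ⟨W, fun ω hω => ?_, rfl, ?_⟩
  · obtain ⟨b1, b2, b3, b4⟩ := hB ω hω
    exact Swp.sub_tbx rfl (hθ ω ⟨b3, b4⟩).1 b1 b2
  set X : Ω → _ := fun ω => tb n (l ω) with hX
  set Y : Ω → _ := fun ω => (dl 0 (B ω) (Tl (o ω) (rd n (l ω))) (t' ω), (o ω, y ω)) with hY
  have a1 : hc M (fun ω => Tl (o ω) (rd n (l ω))) Y ≤ hc M X Y := by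
    refine hc_mono_left M ?_
    intro ω ω' _ _ e
    simp only [Prod.mk.injEq, hY] at e
    show Tl (o ω) (rd n (l ω)) = Tl (o ω') (rd n (l ω'))
    rw [e.2.2.1, rd_iff.2 e.1]
  have a2 := hc_le_add' M X W.lab Y
  have a3 : hc M X (fun ω => (W.lab ω, Y ω)) ≤ hc M X (fun ω => (W.lab ω, ())) :=
    hc_mono_right M X fun _ _ _ _ e => by
      simp only [Prod.mk.injEq] at e ⊢
      exact ⟨e.1, trivial⟩
  have a4 := hc_le_add' M W.lab T'.lab Y
  have a5 : hc M T'.lab Y ≤ K := by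
    refine hJ Ω M n (fun ω => Tl (o ω) (l ω)) (fun ω => Tl (o ω) (rd n (l ω))) t' B _
      (fun ω => (o ω, y ω)) ?_
    intro ω hω
    obtain ⟨b1, b2, b3, b4⟩ := hB ω hω
    exact ⟨Tl_ok (hl ω hω), Tl_near (rd_near n (l ω)), (ht ω hω).1, (ht ω hω).2, b1, b2, b3, b4⟩
  have a6 : hc M W.lab (fun ω => (T'.lab ω, Y ω)) ≤ MJ.Kc 2 := by
    have h := Str.hc_lin M W T' (fun ω => T (o ω)) (fun _ _ => 0) (fun _ _ => 0) o 0
      (fun ω hω => by
        obtain ⟨b1, b2, b3, b4⟩ := hB ω hω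
        obtain ⟨c1, c2⟩ := hθ ω ⟨b3, b4⟩
        refine ⟨c1, b1, b1, fun i => ?_, fun i => ?_, fun w => ?_, fun w => ?_, T_sub (o ω)⟩
        · rw [sub_zero]
          rfl
        · rw [sub_zero]
          rfl
        · show Str.gq (θ ω) (B ω).p (B ω).r w ≤
            ((2:ℝ) ^ 0) ^ 2 * Str.gq (Real.arctan (B ω).v) (B ω).p (B ω).r (T (o ω) w)
          rw [c2]
          norm_num
        · show Str.gq (Real.arctan (B ω).v) (B ω).p (B ω).r (T (o ω) w) ≤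
            ((2:ℝ) ^ 0) ^ 2 * Str.gq (θ ω) (B ω).p (B ω).r w
          rw [c2]
          norm_num)
      (fun ω ω' _ _ e => ⟨by rw [e], rfl, rfl⟩)
    refine (hc_mono_right M _ ?_).trans h
    intro ω ω' _ _ e
    simp only [Prod.mk.injEq, hY] at e ⊢
    exact ⟨e.1, e.2.2.1⟩
  linarith

end finite

/-- **ENDJ** from the two comparisons -/
theorem endJ_of {K₁ K₂ : ℝ} (h₁ : J1 K₁) (h₂ : J2 K₂) {N lam β : ℝ} (hN : 0 ≤ N) (hl : 0 ≤ lam)
    (hl' : lam ≤ 1) (hF : FBeta N lam β) : JFG N lam β := by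
  classical
  intro ε hε
  obtain ⟨c, -, hc'⟩ := hF ε hε
  set K₀ : ℝ := c + (K₂ + MJ.Kc 2) + 1 + cD K₁ + HX.cS + N * (Real.log 2 + Real.log 4) with hK₀
  refine ⟨|K₀| + 2 * N, ?_⟩
  intro Ω _ P l t s n hg hsn
  -- a soft label of the balls
  obtain ⟨Ω', iΩ', P', π, W, q1, q2, q3⟩ := HX.XFH_soft (lam := lam) (N := 0) le_rfl hsn hg
    (fun _ => ())
  rw [XFH_zero, zero_mul, add_zero] at q3
  have hp' : ∀ ω, 0 < P'.w ω → 0 < P.w (π ω) := fun ω hω => by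
    rw [← q1]
    exact P'.pr_pos π hω
  have hg' : GoodF P' (fun ω => l (π ω)) (fun ω => t (π ω)) := fun ω hω => hg (π ω) (hp' ω hω)
  have hWj : ∀ ω, 0 < P'.w ω → W.l ω = blF s (fun ω => l (π ω)) (fun ω => t (π ω)) ω ∧
      |W.θ ω| ≤ 4 ∧ W.k ω ≤ W.j ω ∧ s + W.j ω ≤ n := fun ω hω => by
    obtain ⟨b1, b2, b3, b4, b5, -⟩ := q2 ω hω
    have b5' : W.j ω ≤ n - s := b5
    exact ⟨b1, b2, b3, by omega⟩
  obtain ⟨o, v, hv, q4⟩ := soft_dl h₁ P' (s := s) (n := n) (W := W) hg' hWj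
  set l' : Ω' → Ln := fun ω => Tl (o ω) (rd n (l (π ω))) with hl'd
  set t' : Ω' → ℝ := fun ω => min (t (π ω)) (1 - (1 / 2 : ℝ) ^ n) with ht'
  set x : Ω' → Sec × (ℕ × ℕ) := fun ω => (o ω, (W.k ω, W.j ω)) with hx
  set A : Ω' → Sh := fun ω => ⟨s + W.k ω, s + W.j ω, v ω⟩ with hA
  set X : Ω' → _ := fun ω => tb n (l (π ω)) with hX
  have hn0 : (0:ℝ) < (1 / 2 : ℝ) ^ n := by positivity
  have hn1 : (1 / 2 : ℝ) ^ n ≤ 1 := pow_le_one₀ (by norm_num) (by norm_num)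
  have hT : T01 P' t' := fun ω hω => by
    obtain ⟨-, g2, g3⟩ := hg' ω hω
    exact ⟨le_min g2 (by linarith), (min_le_right _ _).trans_lt (by linarith)⟩
  obtain ⟨Ω'', iΩ'', M, ρ, B, r1, r2, r3⟩ := fb_glue (hc' s) P' l' t' W.k W.j v x hT
    (fun ω hω => (hWj ω hω).2.2.1) hv (fun ω ω' _ _ e => by
      simp only [Prod.mk.injEq, hx] at e
      exact e.2)
  -- the level `s`
  have a1 : hc P' X (fun ω => (dl s (A ω) (l' ω) (t' ω), o ω)) ≤
      hc P' l' (fun ω => (dl s (A ω) (l' ω) (t' ω), x ω)) := by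
    have b1 : hc P' X (fun ω => (dl s (A ω) (l' ω) (t' ω), o ω)) ≤
        hc P' X (fun ω => (dl s (A ω) (l' ω) (t' ω), x ω)) := by
      refine hc_mono_right P' X ?_
      intro ω ω' _ _ e
      simp only [Prod.mk.injEq] at e
      obtain ⟨e1, e2⟩ := e
      have e3 := e1
      unfold dl at e3
      simp only [Prod.mk.injEq, hA] at e3
      obtain ⟨e4, e5, -⟩ := e3
      have e6 : W.k ω = W.k ω' := by omega
      have e7 : W.j ω = W.j ω' := by omega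
      simp only [Prod.mk.injEq, hx]
      exact ⟨e1, e2, e6, e7⟩
    refine b1.trans (hc_mono_left P' ?_)
    intro ω ω' _ _ e
    simp only [Prod.mk.injEq, hx, hl'd] at e
    obtain ⟨e1, -, e2, -⟩ := e
    rw [e2] at e1
    exact rd_iff.1 (Tl_inj e1)
  -- the level `0`
  set l₂ : Ω'' → Ln := fun ω => l (π (ρ ω)) with hl₂
  have hρ : ∀ ω, 0 < M.w ω → 0 < P'.w (ρ ω) := fun ω hω => by
    rw [← r1]
    exact M.pr_pos ρ hω
  obtain ⟨W'', w1, w2, w3⟩ := level0 (lam := lam) h₂ M n l₂ (fun ω => t' (ρ ω)) (fun ω => o (ρ ω)) B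
    (fun ω => (W.k (ρ ω), W.j (ρ ω))) (fun ω hω => (hg' (ρ ω) (hρ ω hω)).1)
    (fun ω hω => hT (ρ ω) (hρ ω hω)) (fun ω hω => by
      obtain ⟨b1, b2, b3, b4⟩ := r2 ω hω
      have := (hWj (ρ ω) (hρ ω hω)).2.2.2
      exact ⟨b1, b2.trans this, b3, b4⟩)
  have hpr : ∀ ω, M.pr (fun ω => π (ρ ω)) ω = P.w ω := fun ω => by
    have := pr_law_aux M P' ρ r1 π ω
    rw [← q1 ω, ← this]
    rfl
  have a2 := Lam.exV_le_excF ⟨hl, hl'⟩ (C := fun _ : Ω => ()) (B := tbx n l) (W := W'') hpr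
    (fun ω hω => w1 ω hω)
  have a3 : exVl lam M ((tbx n l).comp fun ω => π (ρ ω)) W'' (fun _ => ()) =
      hc M (fun ω => tb n (l₂ ω)) (fun ω => (W''.lab ω, ())) -
        Real.log 2 * (2 * (n : ℝ) - M.ex (fun ω => sc lam (B ω))) := by
    have b1 : hc M ((tbx n l).comp fun ω => π (ρ ω)).lab (fun ω => (W''.lab ω, ())) =
        hc M (fun ω => tb n (l₂ ω)) (fun ω => (W''.lab ω, ())) := HX.hc_tbx M n l₂ _
    have b2 : (M.ex fun ω => ((tbx n l).comp fun ω => π (ρ ω)).szl lam ω - W''.szl lam ω) =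
        2 * (n : ℝ) - M.ex (fun ω => sc lam (B ω)) := by
      rw [w2, ← M.ex_const (2 * (n : ℝ)), ← M.ex_sub]
      refine M.ex_congr fun ω _ => ?_
      show (1 + lam) * (n : ℝ) + (1 - lam) * (n : ℝ) - sc lam (B ω) = _
      ring
    unfold exVl
    rw [b1, b2]
  -- the time
  set Z : Ω' → _ := fun ω => (X ω, ()) with hZ
  have a4 : hc P (fun ω => fl1 s (t ω)) (fun ω => (tb n (l ω), ())) =
      hc P' (fun ω => fl1 s (t (π ω))) Z :=
    (hc_of_law P' P π q1 (fun ω => fl1 s (t ω)) (fun ω => (tb n (l ω), ()))).symm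
  have a5 : hc P' (fun ω => fl1 s (t (π ω))) Z ≤ Real.log 2 + hc P' (fun ω => fl1 s (t' ω)) Z := by
    have b1 := hc_le_add' P' (fun ω => fl1 s (t (π ω))) (fun ω => fl1 s (t' ω)) Z
    have b2 := hc_time P' hsn (fun ω => t (π ω)) (fun ω hω => (hg' ω hω).2) Z
    linarith
  have a6 : hc P' (fun ω => fl1 s (t' ω)) Z ≤ hc P' (fun ω => fl1 s (t' ω)) (fun ω => (l' ω, x ω)) +
      (Real.log 4 + 2 * Real.log (n + 1)) := by
    have b1 := hc_le_add' P' (fun ω => fl1 s (t' ω)) x Z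
    have b2 := hc_shape P' n o W.k W.j Z (fun ω hω => by
      obtain ⟨-, -, c1, c2⟩ := hWj ω hω
      omega)
    have b3 : hc P' (fun ω => fl1 s (t' ω)) (fun ω => (x ω, Z ω)) ≤
        hc P' (fun ω => fl1 s (t' ω)) (fun ω => (l' ω, x ω)) := by
      refine hc_mono_right P' _ ?_
      intro ω ω' _ _ e
      simp only [Prod.mk.injEq, hZ] at e
      obtain ⟨e1, e2, -⟩ := e
      have e3 : o ω = o ω' := congrArg Prod.fst e1
      simp only [Prod.mk.injEq, hl'd]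
      exact ⟨by rw [e3, rd_iff.2 e2], e1⟩
    linarith
  have a7 : DF P s n l t (fun _ => ()) = s * Real.log 2 - hc P (fun ω => fl1 s (t ω))
    (fun ω => (tb n (l ω), ())) := rfl
  have a8 : N * (s * Real.log 2 - hc P' (fun ω => fl1 s (t' ω)) (fun ω => (l' ω, x ω))) ≤
      N * (DF P s n l t (fun _ => ()) + (Real.log 2 + Real.log 4) + 2 * Real.log (n + 1)) := by
    refine mul_le_mul_of_nonneg_left ?_ hN
    rw [a7, a4]
    linarith
  -- the sizes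
  have a9 : P'.ex (fun ω => 2 * ((n : ℝ) - s) - W.szl lam ω) =
      2 * (n : ℝ) - P'.ex (fun ω => sc lam (A ω)) := by
    rw [← P'.ex_const (2 * (n : ℝ)), ← P'.ex_sub]
    refine P'.ex_congr fun ω _ => ?_
    unfold Bx.szl sc
    simp only [hA]
    push_cast
    ring
  rw [a9] at q3
  rw [a3] at a2
  have r3' : hc P' l' (fun ω => (dl s (A ω) (l' ω) (t' ω), x ω)) +
      Real.log 2 * P'.ex (fun ω => sc lam (A ω)) ≤
    hc M (fun ω => l' (ρ ω)) (fun ω => (dl 0 (B ω) (l' (ρ ω)) (t' (ρ ω)), x (ρ ω))) +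
      Real.log 2 * M.ex (fun ω => sc lam (B ω)) + ((β + ε) * s * Real.log 2 + c) +
      N * (s * Real.log 2 - hc P' (fun ω => fl1 s (t' ω)) (fun ω => (l' ω, x ω))) + 1 := r3
  have w3' : hc M (fun ω => l' (ρ ω)) (fun ω => (dl 0 (B ω) (l' (ρ ω)) (t' (ρ ω)), x (ρ ω))) ≤
      hc M (fun ω => tb n (l₂ ω)) (fun ω => (W''.lab ω, ())) + (K₂ + MJ.Kc 2) := w3
  have q4' : hc P' (fun ω => tb n (l (π ω))) (fun ω => (W.lab ω, (pq s (ptF l t (π ω)), ()))) ≤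
      hc P' X (fun ω => (dl s (A ω) (l' ω) (t' ω), o ω)) + cD K₁ := q4
  have hlog : 0 ≤ Real.log ((n:ℝ) + 1) := Real.log_nonneg (by
    have : (0:ℝ) ≤ n := Nat.cast_nonneg n
    linarith)
  have c1 : K₀ ≤ |K₀| * (1 + Real.log (n + 1)) := by
    have := le_abs_self K₀
    have h0 := abs_nonneg K₀
    nlinarith
  have c2 : N * (2 * Real.log (n + 1)) ≤ 2 * N * (1 + Real.log (n + 1)) := by nlinarith
  have c3 : (|K₀| + 2 * N) * (1 + Real.log (n + 1)) =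
      |K₀| * (1 + Real.log (n + 1)) + 2 * N * (1 + Real.log (n + 1)) := by ring
  rw [c3]
  have c4 : N * (DF P s n l t (fun _ => ()) + (Real.log 2 + Real.log 4) + 2 * Real.log (n + 1)) =
      N * DF P s n l t (fun _ => ()) + N * (Real.log 2 + Real.log 4) +
        N * (2 * Real.log (n + 1)) := by ring
  rw [c4] at a8
  have c5 : Real.log 2 * (2 * (n : ℝ) - P'.ex (fun ω => sc lam (A ω))) =
      Real.log 2 * (2 * (n : ℝ)) - Real.log 2 * P'.ex (fun ω => sc lam (A ω)) := by ring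
  have c6 : Real.log 2 * (2 * (n : ℝ) - M.ex (fun ω => sc lam (B ω))) =
      Real.log 2 * (2 * (n : ℝ)) - Real.log 2 * M.ex (fun ω => sc lam (B ω)) := by ring
  rw [c5] at q3
  rw [c6] at a2
  linarith

end Vale.Agent.P127.S.EJ
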