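import Vale.Agent.P127.S.Blocks
import Vale.Agent.P127.U.Lam.Swap
import Vale.Agent.P127.U.Lam.HUp
import Vale.Agent.P127.U.Lam.LinkC

/-!
# P127 / S / H330 : sectors of the wide direction (helper330)

* `T o` : one of four signed permutations of the coordinates, `Tl o` for lines.
* `sector` : every box becomes a box of angle in `[0, π/4]`; `sector'` : the inverse.
* `rd n l` : the line rounded to precision `n`.
-/

set_option autoImplicit false

namespace Vale.Agent.P127.S.EJ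

open Vale.Agent.P127 Vale.Agent.P127.Stk Vale.Agent.P127.U

/-- sectors: exchange of the coordinates, reflection of the second coordinate -/
abbrev Sec := Bool × Bool

/-- the signed permutation of a sector -/
def T (o : Sec) (v : Fin 2 → ℝ) : Fin 2 → ℝ :=
  ![if o.1 then (if o.2 then -v 1 else v 1) else v 0,
    if o.1 then v 0 else (if o.2 then -v 1 else v 1)]

theorem T0 (o : Sec) (v : Fin 2 → ℝ) :
    T o v 0 = if o.1 then (if o.2 then -v 1 else v 1) else v 0 := rfl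
theorem T1 (o : Sec) (v : Fin 2 → ℝ) :
    T o v 1 = if o.1 then v 0 else (if o.2 then -v 1 else v 1) := rfl

/-- every coordinate of `T o v` is a coordinate of `v` up to the sign -/
theorem T_form (o : Sec) (i : Fin 2) : ∃ (i' : Fin 2) (e : ℝ), (e = 1 ∨ e = -1) ∧
    ∀ v, T o v i = e * v i' := by
  obtain ⟨a, b⟩ := o
  fin_cases i <;> cases a <;> cases b
  · exact ⟨0, 1, Or.inl rfl, fun v => by simp [T0]⟩
  · exact ⟨0, 1, Or.inl rfl, fun v => by simp [T0]⟩
  · exact ⟨1, 1, Or.inl rfl, fun v => by simp [T0]⟩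
  · exact ⟨1, -1, Or.inr rfl, fun v => by simp [T0]⟩
  · exact ⟨1, 1, Or.inl rfl, fun v => by simp [T1]⟩
  · exact ⟨1, -1, Or.inr rfl, fun v => by simp [T1]⟩
  · exact ⟨0, 1, Or.inl rfl, fun v => by simp [T1]⟩
  · exact ⟨0, 1, Or.inl rfl, fun v => by simp [T1]⟩

theorem T_sub (o : Sec) (v w : Fin 2 → ℝ) :
    T o (fun i => v i - w i) = fun i => T o v i - T o w i := by
  funext i
  obtain ⟨i', e, -, h⟩ := T_form o i
  rw [h, h, h]
  ring

theorem T_abs {o : Sec} {v : Fin 2 → ℝ} {c : ℝ} (h : ∀ i, |v i| ≤ c) (i : Fin 2) : |T o v i| ≤ c := by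
  obtain ⟨i', e, he, h'⟩ := T_form o i
  rw [h', abs_mul]
  have : |e| = 1 := by rcases he with rfl | rfl <;> norm_num
  rw [this, one_mul]
  exact h i'

theorem T_inj {o : Sec} {v w : Fin 2 → ℝ} (h : T o v = T o w) : v = w := by
  obtain ⟨a, b⟩ := o
  have h0 := congrFun h 0
  have h1 := congrFun h 1
  rw [T0, T0] at h0
  rw [T1, T1] at h1
  funext i
  cases a <;> cases b <;> simp at h0 h1 <;> fin_cases i <;> simp [h0, h1]

theorem T_surj (o : Sec) (w : Fin 2 → ℝ) : ∃ v, T o v = w := by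
  obtain ⟨a, b⟩ := o
  cases a <;> cases b
  · exact ⟨![w 0, w 1], by funext i; fin_cases i <;> simp [T0, T1]⟩
  · exact ⟨![w 0, -w 1], by funext i; fin_cases i <;> simp [T0, T1]⟩
  · exact ⟨![w 1, w 0], by funext i; fin_cases i <;> simp [T0, T1]⟩
  · exact ⟨![w 1, -w 0], by funext i; fin_cases i <;> simp [T0, T1]⟩

/-! ### sectors -/

theorem gq_def (θ : ℝ) (k j : ℕ) (v : Fin 2 → ℝ) : Str.gq θ k j v =
    ((2:ℝ) ^ k * (Real.cos θ * v 0 + Real.sin θ * v 1)) ^ 2 +
      ((2:ℝ) ^ j * (-Real.sin θ * v 0 + Real.cos θ * v 1)) ^ 2 := by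
  unfold Str.gq
  rw [Str.co0, Str.co1]

/-- **the sector of an angle** -/
theorem sector (θ : ℝ) : ∃ (o : Sec) (φ : ℝ), 0 ≤ φ ∧ φ ≤ Real.pi / 4 ∧
    ∀ (k j : ℕ) (v : Fin 2 → ℝ), Str.gq φ k j (T o v) = Str.gq θ k j v := by
  set c := Real.cos θ with hc
  set s := Real.sin θ with hs
  have hcs : s ^ 2 + c ^ 2 = 1 := Real.sin_sq_add_cos_sq θ
  have key : ∀ (x y : ℝ), 0 ≤ y → y ≤ x → y ^ 2 + x ^ 2 = 1 →
      ∃ φ : ℝ, 0 ≤ φ ∧ φ ≤ Real.pi / 4 ∧ Real.sin φ = y ∧ Real.cos φ = x := by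
    intro x y hy hyx hxy
    have hx : 0 ≤ x := hy.trans hyx
    have hy1 : y ≤ 1 := by nlinarith
    have hsin : Real.sin (Real.arcsin y) = y := Real.sin_arcsin (by linarith) hy1
    have hcos : Real.cos (Real.arcsin y) = x := by
      rw [Real.cos_arcsin]
      have : 1 - y ^ 2 = x ^ 2 := by linarith
      rw [this]
      exact Real.sqrt_sq hx
    refine ⟨Real.arcsin y, Real.arcsin_nonneg.2 hy, ?_, hsin, hcos⟩
    by_contra hcon
    push Not at hcon
    have h1 : Real.arcsin y ≤ Real.pi / 2 := Real.arcsin_le_pi_div_two y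
    have h2 := Real.pi_pos
    have h3 : Real.sin (Real.pi / 4) < Real.sin (Real.arcsin y) :=
      Real.sin_lt_sin_of_lt_of_le_pi_div_two (by linarith) h1 hcon
    have h4 : Real.cos (Real.arcsin y) < Real.cos (Real.pi / 4) :=
      Real.cos_lt_cos_of_nonneg_of_le_pi_div_two (by linarith) h1 hcon
    rw [Real.sin_pi_div_four] at h3
    rw [Real.cos_pi_div_four] at h4
    rw [hsin] at h3
    rw [hcos] at h4
    linarith
  have sqr : ∀ x : ℝ, |x| ^ 2 = x ^ 2 := fun x => sq_abs x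
  by_cases h : |s| ≤ |c|
  · obtain ⟨φ, h1, h2, h3, h4⟩ := key |c| |s| (abs_nonneg _) h (by rw [sqr, sqr]; exact hcs)
    by_cases h5 : 0 ≤ c * s
    · refine ⟨(false, false), φ, h1, h2, fun k j v => ?_⟩
      rw [gq_def, gq_def, h3, h4, T0, T1]
      simp only [Bool.false_eq_true, if_false]
      rw [← hc, ← hs]
      have e1 : |c| * |s| = c * s := by rw [← abs_mul, abs_of_nonneg h5]
      have a1 := sqr c
      have a2 := sqr s
      calc ((2:ℝ) ^ k * (|c| * v 0 + |s| * v 1)) ^ 2 + (2 ^ j * (-|s| * v 0 + |c| * v 1)) ^ 2 =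
          (2 ^ k) ^ 2 * (|c| ^ 2 * v 0 ^ 2 + |s| ^ 2 * v 1 ^ 2 + 2 * (|c| * |s|) * (v 0 * v 1)) +
            (2 ^ j) ^ 2 * (|s| ^ 2 * v 0 ^ 2 + |c| ^ 2 * v 1 ^ 2 - 2 * (|c| * |s|) * (v 0 * v 1)) := by
            ring
        _ = _ := by rw [a1, a2, e1]; ring
    · refine ⟨(false, true), φ, h1, h2, fun k j v => ?_⟩
      rw [gq_def, gq_def, h3, h4, T0, T1]
      simp only [Bool.false_eq_true, if_false, if_true]
      rw [← hc, ← hs]
      have e1 : |c| * |s| = -(c * s) := by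
        rw [← abs_mul, abs_of_neg (not_le.1 h5)]
      have a1 := sqr c
      have a2 := sqr s
      calc ((2:ℝ) ^ k * (|c| * v 0 + |s| * -v 1)) ^ 2 + (2 ^ j * (-|s| * v 0 + |c| * -v 1)) ^ 2 =
          (2 ^ k) ^ 2 * (|c| ^ 2 * v 0 ^ 2 + |s| ^ 2 * v 1 ^ 2 - 2 * (|c| * |s|) * (v 0 * v 1)) +
            (2 ^ j) ^ 2 * (|s| ^ 2 * v 0 ^ 2 + |c| ^ 2 * v 1 ^ 2 + 2 * (|c| * |s|) * (v 0 * v 1)) := by
            ring
        _ = _ := by rw [a1, a2, e1]; ring
  · obtain ⟨φ, h1, h2, h3, h4⟩ := key |s| |c| (abs_nonneg _) (not_le.1 h).le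
      (by rw [sqr, sqr]; linarith)
    by_cases h5 : 0 ≤ c * s
    · refine ⟨(true, false), φ, h1, h2, fun k j v => ?_⟩
      rw [gq_def, gq_def, h3, h4, T0, T1]
      simp only [Bool.false_eq_true, if_false, if_true]
      rw [← hc, ← hs]
      have e1 : |c| * |s| = c * s := by rw [← abs_mul, abs_of_nonneg h5]
      have a1 := sqr c
      have a2 := sqr s
      calc ((2:ℝ) ^ k * (|s| * v 1 + |c| * v 0)) ^ 2 + (2 ^ j * (-|c| * v 1 + |s| * v 0)) ^ 2 =
          (2 ^ k) ^ 2 * (|s| ^ 2 * v 1 ^ 2 + |c| ^ 2 * v 0 ^ 2 + 2 * (|c| * |s|) * (v 0 * v 1)) +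
            (2 ^ j) ^ 2 * (|c| ^ 2 * v 1 ^ 2 + |s| ^ 2 * v 0 ^ 2 - 2 * (|c| * |s|) * (v 0 * v 1)) := by
            ring
        _ = _ := by rw [a1, a2, e1]; ring
    · refine ⟨(true, true), φ, h1, h2, fun k j v => ?_⟩
      rw [gq_def, gq_def, h3, h4, T0, T1]
      simp only [if_true]
      rw [← hc, ← hs]
      have e1 : |c| * |s| = -(c * s) := by
        rw [← abs_mul, abs_of_neg (not_le.1 h5)]
      have a1 := sqr c
      have a2 := sqr s
      calc ((2:ℝ) ^ k * (|s| * -v 1 + |c| * v 0)) ^ 2 + (2 ^ j * (-|c| * -v 1 + |s| * v 0)) ^ 2 =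
          (2 ^ k) ^ 2 * (|s| ^ 2 * v 1 ^ 2 + |c| ^ 2 * v 0 ^ 2 - 2 * (|c| * |s|) * (v 0 * v 1)) +
            (2 ^ j) ^ 2 * (|c| ^ 2 * v 1 ^ 2 + |s| ^ 2 * v 0 ^ 2 + 2 * (|c| * |s|) * (v 0 * v 1)) := by
            ring
        _ = _ := by rw [a1, a2, e1]; ring

/-- **the angle of the box in the original coordinates** -/
theorem sector' (o : Sec) {φ : ℝ} (h0 : 0 ≤ φ) (h1 : φ ≤ Real.pi / 4) : ∃ θ : ℝ, |θ| ≤ 4 ∧
    ∀ (k j : ℕ) (v : Fin 2 → ℝ), Str.gq φ k j (T o v) = Str.gq θ k j v := by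
  have hp := Real.pi_le_four
  have hp' := Real.pi_pos
  obtain ⟨a, b⟩ := o
  cases a <;> cases b
  · refine ⟨φ, by rw [abs_le]; constructor <;> linarith, fun k j v => ?_⟩
    rw [gq_def, gq_def, T0, T1]
    simp
  · refine ⟨-φ, by rw [abs_le]; constructor <;> linarith, fun k j v => ?_⟩
    rw [gq_def, gq_def, T0, T1, Real.cos_neg, Real.sin_neg]
    simp only [Bool.false_eq_true, if_false, if_true]
    ring
  · refine ⟨Real.pi / 2 - φ, by rw [abs_le]; constructor <;> linarith, fun k j v => ?_⟩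
    rw [gq_def, gq_def, T0, T1, Real.cos_pi_div_two_sub, Real.sin_pi_div_two_sub]
    simp only [Bool.false_eq_true, if_false, if_true]
    ring
  · refine ⟨-(Real.pi / 2 - φ), by rw [abs_le]; constructor <;> linarith, fun k j v => ?_⟩
    rw [gq_def, gq_def, T0, T1, Real.cos_neg, Real.sin_neg, Real.cos_pi_div_two_sub,
      Real.sin_pi_div_two_sub]
    simp only [if_true]
    ring

/-! ### lines -/

/-- the signed permutation on lines -/
def Tl (o : Sec) (l : Ln) : Ln := (T o l.1, T o l.2)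

theorem pos_Tl (o : Sec) (l : Ln) (t : ℝ) : pos (Tl o l) t = T o (pos l t) := by
  funext i
  obtain ⟨i', e, -, h⟩ := T_form o i
  unfold pos Tl
  simp only [h]
  ring

theorem Tl_ok {o : Sec} {l : Ln} (h : LnOk l) : LnOk (Tl o l) :=
  ⟨fun i => T_abs h.1 i, fun i => T_abs h.2 i⟩

theorem Tl_near {o : Sec} {n : ℕ} {l l' : Ln} (h : LinkC.Near n l l') :
    LinkC.Near n (Tl o l) (Tl o l') := by
  refine ⟨fun i => ?_, fun i => ?_⟩
  · have := T_abs (o := o) (v := fun i => l.1 i - l'.1 i) h.1 i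
    rw [T_sub] at this
    exact this
  · have := T_abs (o := o) (v := fun i => l.2 i - l'.2 i) h.2 i
    rw [T_sub] at this
    exact this

theorem Tl_inj {o : Sec} {l l' : Ln} (h : Tl o l = Tl o l') : l = l' :=
  Prod.ext (T_inj (congrArg Prod.fst h)) (T_inj (congrArg Prod.snd h))

/-- the line rounded to precision `n` -/
noncomputable def rd (n : ℕ) (l : Ln) : Ln := (fun i => qa n (l.1 i), fun i => qa n (l.2 i))

theorem rd_near (n : ℕ) (l : Ln) : LinkC.Near n l (rd n l) :=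
  ⟨fun _ => Apx.abs_sub_qa n _, fun _ => Apx.abs_sub_qa n _⟩

theorem qa_inj {n : ℕ} {x y : ℝ} (h : qa n x = qa n y) : fl1 n x = fl1 n y := by
  unfold qa at h
  rw [div_left_inj' (by positivity)] at h
  exact_mod_cast h

theorem rd_iff {n : ℕ} {l l' : Ln} : rd n l = rd n l' ↔ tb n l = tb n l' := by
  constructor
  · intro h
    refine Prod.ext (funext fun i => ?_) (funext fun i => ?_)
    · exact qa_inj (congrFun (congrArg Prod.fst h) i)
    · exact qa_inj (congrFun (congrArg Prod.snd h) i)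
  · intro h
    refine Prod.ext (funext fun i => ?_) (funext fun i => ?_)
    · exact Apx.qa_congr (congrFun (congrArg Prod.fst h) i)
    · exact Apx.qa_congr (congrFun (congrArg Prod.snd h) i)

/-- slope of a direction in `[0, π/4]`, rounded into `[0, 1)` -/
theorem exists_slope (n : ℕ) {φ : ℝ} (h0 : 0 ≤ φ) (h1 : φ ≤ Real.pi / 4) :
    ∃ v : ℝ, 0 ≤ v ∧ v < 1 ∧ |v - Real.tan φ| ≤ (1 / 2 : ℝ) ^ n := by
  have h2 : Real.tan φ ≤ 1 := (le_abs_self _).trans (LinkC.tan_le_one (by rwa [abs_of_nonneg h0]))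
  have h3 : 0 ≤ Real.tan φ := Real.tan_nonneg_of_nonneg_of_le_pi_div_two h0
    (by linarith [Real.pi_pos])
  have h4 : (0:ℝ) < (1 / 2) ^ n := by positivity
  have h5 : (1 / 2 : ℝ) ^ n ≤ 1 := pow_le_one₀ (by norm_num) (by norm_num)
  refine ⟨min (Real.tan φ) (1 - (1 / 2 : ℝ) ^ n), le_min h3 (by linarith),
    (min_le_right _ _).trans_lt (by linarith), ?_⟩
  rw [abs_le]
  rcases le_total (Real.tan φ) (1 - (1 / 2 : ℝ) ^ n) with h | h
  · rw [min_eq_left h]
    constructor <;> linarith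
  · rw [min_eq_right h]
    constructor <;> linarith

/-! ### balls -/

section balls

variable {Ω : Type}

/-- integer parts which appear by the reflection -/
noncomputable def m1 (s : ℕ) (o : Sec) (l : Ln) (t : ℝ) : Fin 2 → ℝ := fun i =>
  T o (fun j => Int.fract ((2:ℝ) ^ s * pos l (qa s t) j)) i -
    Int.fract ((2:ℝ) ^ s * pos (Tl o l) (qa s t) i)

theorem m1_mem (s : ℕ) (o : Sec) (l : Ln) (t : ℝ) (i : Fin 2) :
    m1 s o l t i = 0 ∨ m1 s o l t i = -1 := by
  obtain ⟨i', e, he, h⟩ := T_form o i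
  unfold m1
  rw [pos_Tl, h, h]
  rcases he with rfl | rfl
  · left
    rw [one_mul, one_mul]
    ring
  · set x := (2:ℝ) ^ s * pos l (qa s t) i' with hx
    have e1 : (2:ℝ) ^ s * (-1 * pos l (qa s t) i') = -x := by rw [hx]; ring
    rw [e1]
    by_cases h0 : Int.fract x = 0
    · left
      have : Int.fract (-x) = 0 := by
        rw [Int.fract_neg_eq_zero]
        exact h0
      rw [this, h0]
      ring
    · right
      rw [Int.fract_neg h0]
      ring

theorem blF_Tl (s : ℕ) (o : Ω → Sec) (l : Ω → Ln) (t : Ω → ℝ) (ω : Ω) (i : Fin 2) :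
    (blF s (fun ω => Tl (o ω) (l ω)) t ω).1 i =
      T (o ω) (blF s l t ω).1 i - m1 s (o ω) (l ω) (t ω) i := by
  unfold m1 blF
  simp only
  ring

end balls

end Vale.Agent.P127.S.EJ
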