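import Vale.Agent.P127.S.H330.Sect

/-!
# P127 / S / H330 : soft labels of the balls and labels `dl` (helper330)
-/

set_option autoImplicit false

namespace Vale.Agent.P127.S.EJ

open Vale.Agent.P127 Vale.Agent.P127.Stk Vale.Agent.P127.U

/-- the comparison J1 (helper480) with the constant `K` -/
def J1 (K : ℝ) : Prop := ∀ (Ω : Type) [Fintype Ω] (P : Law Ω) (s n : ℕ) (l l' : Ω → Ln)
    (t t' θ v : Ω → ℝ) (k j : Ω → ℕ) (γ : Type) (Z : Ω → γ),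
    (∀ ω, 0 < P.w ω → LnOk (l ω) ∧ 0 ≤ t ω ∧ t ω ≤ 1 ∧ LinkC.Near n (l ω) (l' ω) ∧
      t' ω = min (t ω) (1 - (1 / 2 : ℝ) ^ n) ∧ 0 ≤ θ ω ∧ θ ω ≤ Real.pi / 4 ∧ 0 ≤ v ω ∧ v ω < 1 ∧
      |v ω - Real.tan (θ ω)| ≤ (1 / 2 : ℝ) ^ n ∧ k ω ≤ j ω ∧ s + j ω ≤ n) →
    hc P (fun ω => dl s ⟨s + k ω, s + j ω, v ω⟩ (l' ω) (t' ω))
      (fun ω => (U.lab (θ ω) (k ω) (j ω) (blF s l t ω), (pq s (ptF l t ω), Z ω))) ≤ K

/-- the comparison J2 (helper480) with the constant `K` -/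
def J2 (K : ℝ) : Prop := ∀ (Ω : Type) [Fintype Ω] (P : Law Ω) (n : ℕ) (l l' : Ω → Ln)
    (t' : Ω → ℝ) (A : Ω → Sh) (γ : Type) (Z : Ω → γ),
    (∀ ω, 0 < P.w ω → LnOk (l ω) ∧ LinkC.Near n (l ω) (l' ω) ∧ 0 ≤ t' ω ∧ t' ω < 1 ∧
      (A ω).p ≤ (A ω).r ∧ (A ω).r ≤ n ∧ 0 ≤ (A ω).v ∧ (A ω).v < 1) →
    hc P (fun ω => U.lab (Real.arctan (A ω).v) (A ω).p (A ω).r (l ω))
      (fun ω => (dl 0 (A ω) (l' ω) (t' ω), Z ω)) ≤ K

section finite

variable {Ω : Type} [Fintype Ω]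

theorem log_finset {α β : Type*} (P : Law Ω) (X : Ω → α) (Y : Ω → β) (F : Finset α)
    (h : ∀ ω, 0 < P.w ω → X ω ∈ F) : hc P X Y ≤ Real.log (F.card) :=
  hc_le_log P X Y F.card fun _ _ => ⟨F, le_rfl, fun ω' h' _ => h ω' h'⟩

theorem hc_sec {β : Type*} (P : Law Ω) (o : Ω → Sec) (Y : Ω → β) : hc P o Y ≤ Real.log 4 := by
  have h := log_finset P o Y Finset.univ (fun _ _ => Finset.mem_univ _)
  have e : ((Finset.univ : Finset Sec).card : ℝ) = 4 := by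
    rw [Finset.card_univ]
    simp [Sec]
  rwa [e] at h

theorem hc_m1 {β : Type*} (P : Law Ω) (s : ℕ) (o : Ω → Sec) (l : Ω → Ln) (t : Ω → ℝ) (Y : Ω → β) :
    hc P (fun ω => m1 s (o ω) (l ω) (t ω)) Y ≤ Real.log 4 := by
  classical
  have h := log_finset P (fun ω => m1 s (o ω) (l ω) (t ω)) Y
    (Fintype.piFinset fun _ => ({0, -1} : Finset ℝ)) (fun ω _ => by
      rw [Fintype.mem_piFinset]
      intro i
      rcases m1_mem s (o ω) (l ω) (t ω) i with h | h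
      · rw [h]; simp
      · rw [h]; simp)
  refine h.trans (Real.log_le_log ?_ ?_)
  · rw [Fintype.card_piFinset]
    have : (({0, -1} : Finset ℝ)).card = 2 := by
      rw [Finset.card_pair (by norm_num)]
    simp only [this, Finset.prod_const, Finset.card_univ, Fintype.card_fin]
    norm_num
  · rw [Fintype.card_piFinset]
    have : (({0, -1} : Finset ℝ)).card = 2 := by
      rw [Finset.card_pair (by norm_num)]
    simp only [this, Finset.prod_const, Finset.card_univ, Fintype.card_fin]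
    norm_num

/-- the cell of the transformed point -/
theorem hc_pq_Tl {β : Type*} (P : Law Ω) (s : ℕ) (o : Ω → Sec) (l : Ω → Ln) (t : Ω → ℝ)
    (Y : Ω → β) (hY : ∀ ω ω', 0 < P.w ω → 0 < P.w ω' → Y ω = Y ω' →
      o ω = o ω' ∧ pq s (ptF l t ω) = pq s (ptF l t ω')) :
    hc P (fun ω => pq s (ptF (fun ω => Tl (o ω) (l ω)) t ω)) Y ≤ 2 * Real.log 5 := by
  have h1 : hc P (fun ω => fl s (pos (Tl (o ω) (l ω)) (t ω))) Y ≤
      Fintype.card (Fin 2) * Real.log (2 * ((1 : ℕ) : ℝ) + 3) := by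
    refine Apx.hc_fl_apx P s 1 (fun ω => pos (Tl (o ω) (l ω)) (t ω)) Y ?_
    intro ω ω' p p' e i
    obtain ⟨e1, e2⟩ := hY ω ω' p p' e
    have e3 : fl s (pos (l ω) (t ω)) = fl s (pos (l ω') (t ω')) := congrArg Prod.snd e2
    rw [pos_Tl, pos_Tl, e1]
    have := T_abs (o := o ω') (v := fun i => pos (l ω) (t ω) i - pos (l ω') (t ω') i)
      (c := (1 / 2 : ℝ) ^ s) (fun i => Apx.fl_close e3 i) i
    rw [T_sub] at this
    rw [Nat.cast_one, one_mul]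
    exact this
  have h2 : hc P (fun ω => pq s (ptF (fun ω => Tl (o ω) (l ω)) t ω)) Y ≤
      hc P (fun ω => fl s (pos (Tl (o ω) (l ω)) (t ω))) Y := by
    refine hc_mono_left P ?_
    intro ω ω' p p' e
    simp only [Prod.mk.injEq] at e
    obtain ⟨e1, e2⟩ := hY ω ω' p p' e.2
    have e3 : fl1 s (t ω) = fl1 s (t ω') := congrArg Prod.fst e2
    exact Prod.ext e3 e.1
  refine h2.trans (h1.trans (le_of_eq ?_))
  simp
  norm_num

/-- the constant of `soft_dl` -/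
noncomputable def cD (K : ℝ) : ℝ := K + MJ.Kc 2 + 2 * Real.log 5 + 2 * Real.log 4

/-- **a label of the balls as a label `dl`** -/
theorem soft_dl {K : ℝ} (hJ : J1 K) (P : Law Ω) {s n : ℕ} {l : Ω → Ln} {t : Ω → ℝ} {W : Bx Ω}
    (hg : GoodF P l t) (hW : ∀ ω, 0 < P.w ω → W.l ω = blF s l t ω ∧ |W.θ ω| ≤ 4 ∧
      W.k ω ≤ W.j ω ∧ s + W.j ω ≤ n) :
    ∃ (o : Ω → Sec) (v : Ω → ℝ), (∀ ω, 0 ≤ v ω ∧ v ω < 1) ∧
      hc P (fun ω => tb n (l ω)) (fun ω => (W.lab ω, (pq s (ptF l t ω), ()))) ≤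
        hc P (fun ω => tb n (l ω)) (fun ω =>
          (dl s ⟨s + W.k ω, s + W.j ω, v ω⟩ (Tl (o ω) (rd n (l ω)))
            (min (t ω) (1 - (1 / 2 : ℝ) ^ n)), o ω)) + cD K := by
  classical
  choose o φ h0 h1 hq using fun ω => sector (W.θ ω)
  choose v v0 v1 hv using fun ω => exists_slope n (h0 ω) (h1 ω)
  refine ⟨o, v, fun ω => ⟨v0 ω, v1 ω⟩, ?_⟩
  set X : Ω → _ := fun ω => tb n (l ω) with hX
  set Y : Ω → _ := fun ω => (W.lab ω, (pq s (ptF l t ω), ())) with hY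
  set D : Ω → _ := fun ω => dl s ⟨s + W.k ω, s + W.j ω, v ω⟩ (Tl (o ω) (rd n (l ω)))
    (min (t ω) (1 - (1 / 2 : ℝ) ^ n)) with hD
  set M : Ω → (Fin 2 → ℝ) := fun ω => m1 s (o ω) (l ω) (t ω) with hM
  set l₁ : Ω → Ln := fun ω => Tl (o ω) (l ω) with hl₁
  set U' : Bx Ω := ⟨blF s l₁ t, φ, W.k, W.j⟩ with hU'
  -- the label of the transformed box
  have a1 : hc P U'.lab (fun ω => (W.lab ω, (o ω, M ω))) ≤ MJ.Kc 2 := by
    have := Str.hc_lin' P W U' (fun ω => T (o ω)) M (fun _ _ => 0) (fun ω => (o ω, M ω)) 0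
      (fun ω hω => by
        obtain ⟨b1, b2, b3, b4⟩ := hW ω hω
        refine ⟨?_, b3, b3, fun i => ?_, fun i => ?_, fun w => ?_, fun w => ?_, T_sub (o ω),
          T_surj (o ω)⟩
        · have := Real.pi_le_four
          show |φ ω| ≤ 4
          rw [abs_of_nonneg (h0 ω)]
          linarith [h1 ω]
        · show (blF s l₁ t ω).1 i = T (o ω) (W.l ω).1 i - M ω i
          rw [b1]
          exact blF_Tl s o l t ω i
        · show (blF s l₁ t ω).2 i = T (o ω) (W.l ω).2 i - 0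
          rw [b1, sub_zero]
          rfl
        · show Str.gq (W.θ ω) (W.k ω) (W.j ω) w ≤
            ((2:ℝ) ^ 0) ^ 2 * Str.gq (φ ω) (W.k ω) (W.j ω) (T (o ω) w)
          rw [hq]
          norm_num
        · show Str.gq (φ ω) (W.k ω) (W.j ω) (T (o ω) w) ≤
            ((2:ℝ) ^ 0) ^ 2 * Str.gq (W.θ ω) (W.k ω) (W.j ω) w
          rw [hq]
          norm_num)
      (fun ω ω' _ _ e => by
        simp only [Prod.mk.injEq] at e
        refine ⟨by rw [e.1], e.2, rfl⟩)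
    exact this
  -- the label `dl`
  have a2 : hc P D (fun ω => (U'.lab ω, (pq s (ptF l₁ t ω), (o ω, M ω, Y ω)))) ≤ K := by
    refine hJ Ω P s n l₁ (fun ω => Tl (o ω) (rd n (l ω))) t
      (fun ω => min (t ω) (1 - (1 / 2 : ℝ) ^ n)) φ v W.k W.j _ (fun ω => (o ω, M ω, Y ω)) ?_
    intro ω hω
    obtain ⟨b1, b2, b3, b4⟩ := hW ω hω
    obtain ⟨g1, g2, g3⟩ := hg ω hω
    exact ⟨Tl_ok g1, g2, g3, Tl_near (rd_near n (l ω)), rfl, h0 ω, h1 ω, v0 ω, v1 ω, hv ω, b3, b4⟩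
  -- chain
  have a3 : hc P (fun ω => pq s (ptF l₁ t ω)) (fun ω => (o ω, M ω, Y ω)) ≤ 2 * Real.log 5 := by
    refine hc_pq_Tl P s o l t _ fun ω ω' _ _ e => ?_
    simp only [Prod.mk.injEq, hY] at e
    exact ⟨e.1, e.2.2.2.1⟩
  have a4 : hc P U'.lab (fun ω => (pq s (ptF l₁ t ω), (o ω, M ω, Y ω))) ≤ MJ.Kc 2 := by
    refine (hc_mono_right P _ ?_).trans a1
    intro ω ω' _ _ e
    simp only [Prod.mk.injEq, hY] at e ⊢
    exact ⟨e.2.2.2.1, e.2.1, e.2.2.1⟩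
  have a5 : hc P D (fun ω => (o ω, M ω, Y ω)) ≤ K + MJ.Kc 2 + 2 * Real.log 5 := by
    have b1 := hc_le_add P D (fun ω => (U'.lab ω, pq s (ptF l₁ t ω))) (fun ω => (o ω, M ω, Y ω))
    have b2 := hc_pair P (fun ω => pq s (ptF l₁ t ω)) U'.lab (fun ω => (o ω, M ω, Y ω))
    have b3 : hc P (fun ω => (U'.lab ω, pq s (ptF l₁ t ω))) (fun ω => (o ω, M ω, Y ω)) =
        hc P (fun ω => (pq s (ptF l₁ t ω), U'.lab ω)) (fun ω => (o ω, M ω, Y ω)) :=
      hc_congr P (fun _ _ _ _ e => by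
        simp only [Prod.mk.injEq] at e ⊢
        exact ⟨e.1.2, e.1.1⟩) (fun _ _ _ _ e => by
        simp only [Prod.mk.injEq] at e ⊢
        exact ⟨e.1.2, e.1.1⟩) (fun _ _ _ _ e => e) (fun _ _ _ _ e => e)
    have b4 : hc P D (fun ω => ((U'.lab ω, pq s (ptF l₁ t ω)), (o ω, M ω, Y ω))) =
        hc P D (fun ω => (U'.lab ω, (pq s (ptF l₁ t ω), (o ω, M ω, Y ω)))) :=
      hc_congr P (fun _ _ _ _ e => congrArg Prod.fst e) (fun _ _ _ _ e => congrArg Prod.fst e)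
        (fun _ _ _ _ e => by
          simp only [Prod.mk.injEq] at e ⊢
          exact ⟨⟨e.1, e.2.1⟩, e.2.2⟩) (fun _ _ _ _ e => by
          simp only [Prod.mk.injEq] at e ⊢
          exact ⟨e.1.1, e.1.2, e.2⟩)
    linarith
  have a6 : hc P X Y ≤ hc P X (fun ω => (o ω, M ω, Y ω)) + 2 * Real.log 4 := by
    have b1 := hc_le_add' P X (fun ω => (o ω, M ω)) Y
    have b2 := hc_pair P o M Y
    have b3 := hc_sec P o Y
    have b4 := hc_m1 P s o l t (fun ω => (o ω, Y ω))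
    have b5 : hc P X (fun ω => ((o ω, M ω), Y ω)) = hc P X (fun ω => (o ω, M ω, Y ω)) :=
      hc_congr P (fun _ _ _ _ e => congrArg Prod.fst e) (fun _ _ _ _ e => congrArg Prod.fst e)
        (fun _ _ _ _ e => by
          simp only [Prod.mk.injEq] at e ⊢
          exact ⟨⟨e.1, e.2.1⟩, e.2.2⟩) (fun _ _ _ _ e => by
          simp only [Prod.mk.injEq] at e ⊢
          exact ⟨e.1.1, e.1.2, e.2⟩)
    linarith
  have a7 : hc P X (fun ω => (o ω, M ω, Y ω)) ≤ hc P X (fun ω => (D ω, o ω)) +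
      hc P D (fun ω => (o ω, M ω, Y ω)) := by
    have b1 := hc_le_add' P X D (fun ω => (o ω, M ω, Y ω))
    have b2 : hc P X (fun ω => (D ω, (o ω, M ω, Y ω))) ≤ hc P X (fun ω => (D ω, o ω)) :=
      hc_mono_right P X fun ω ω' _ _ e => by
        simp only [Prod.mk.injEq] at e ⊢
        exact ⟨e.1, e.2.1⟩
    linarith
  unfold cD
  linarith

end finite

end Vale.Agent.P127.S.EJ
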